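import Vale.Agent.P265.H264.Final

/-!
# The stable Morse form of the Arnold conjecture is false

There is a closed connected symplectic manifold of dimension six with a nondegenerate Hamiltonian
flow whose time-one map has at most sixteen (contractible) fixed points, while its stable Morse
number is at least seventeen.
-/

open Set Manifold Vale.Agent.P265.Loc
open scoped ContDiff

namespace Vale.Agent.Results.P265.Disproof

/-- Disproof of Q1: `#Fix₀ ≤ 16 < 17 ≤ SM(M)` for a closed connected symplectic manifold `M` of
dimension six and a one-periodic Hamiltonian all of whose fixed points are nondegenerate. -/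
theorem result :
    ∃ (M : Type) (_ : TopologicalSpace M) (_ : T2Space M) (_ : CompactSpace M)
      (_ : ConnectedSpace M) (_ : ChartedSpace (EuclideanSpace ℝ (Fin 6)) M)
      (_ : IsManifold 𝓘(ℝ, EuclideanSpace ℝ (Fin 6)) ∞ M)
      (om : FormField (EuclideanSpace ℝ (Fin 6)) M) (H : ℝ → M → ℝ) (φ : ℝ → M → M),
      IsSymplectic om ∧ IsHamiltonianFlow om H φ ∧
        NondegFixedPoints (EuclideanSpace ℝ (Fin 6)) (φ 1) ∧
        (Fix0 φ).encard ≤ 16 ∧ 17 ≤ StableMorseNumber (EuclideanSpace ℝ (Fin 6)) M :=
  Vale.Agent.P265.H264.counterexample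

end Vale.Agent.Results.P265.Disproof
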