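import Vale.Agent.P265.H363.Base

/-!
# The stable Morse form of the Arnold conjecture fails in every even dimension at least six

(1) The conjecture is false as stated.
(2) For every `n ≥ 3` there is a closed connected symplectic manifold of dimension `2 n` with a
nondegenerate Hamiltonian flow whose time-one map has at most `2 ^ (n + 1)` fixed points (with
contractible loop or not), while the stable Morse number of the manifold is at least
`2 ^ (n + 1) + 2 ^ ⌊(n - 2) / 4⌋`.
-/

open Set Manifold Vale.Agent.P265.Loc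
open scoped ContDiff

namespace Vale.Agent.Results.P265.EveryDimension

theorem result :
    (¬ ∀ (m : ℕ) (M : Type) [TopologicalSpace M] [T2Space M] [CompactSpace M] [ConnectedSpace M]
      [ChartedSpace (EuclideanSpace ℝ (Fin m)) M]
      [IsManifold 𝓘(ℝ, EuclideanSpace ℝ (Fin m)) ∞ M]
      (om : FormField (EuclideanSpace ℝ (Fin m)) M) (H : ℝ → M → ℝ) (φ : ℝ → M → M),
      IsSymplectic om → IsHamiltonianFlow om H φ →
        NondegFixedPoints (EuclideanSpace ℝ (Fin m)) (φ 1) →
        StableMorseNumber (EuclideanSpace ℝ (Fin m)) M ≤ (Fix0 φ).encard) ∧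
    ∀ n : ℕ, 3 ≤ n →
      ∃ (M : Type) (_ : TopologicalSpace M) (_ : T2Space M) (_ : CompactSpace M)
        (_ : ConnectedSpace M) (_ : ChartedSpace (EuclideanSpace ℝ (Fin (2 * n))) M)
        (_ : IsManifold 𝓘(ℝ, EuclideanSpace ℝ (Fin (2 * n))) ∞ M)
        (om : FormField (EuclideanSpace ℝ (Fin (2 * n))) M) (H : ℝ → M → ℝ) (φ : ℝ → M → M),
        IsSymplectic om ∧ IsHamiltonianFlow om H φ ∧
          NondegFixedPoints (EuclideanSpace ℝ (Fin (2 * n))) (φ 1) ∧
          {x | φ 1 x = x}.encard ≤ 2 ^ (n + 1) ∧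
          2 ^ (n + 1) + 2 ^ ((n - 2) / 4) ≤
            StableMorseNumber (EuclideanSpace ℝ (Fin (2 * n))) M := by
  refine ⟨fun h => ?_, fun n hn => Vale.Agent.P265.H363.every_dimension n hn⟩
  obtain ⟨M, _, _, _, _, _, _, om, H, φ, h1, h2, h3, h4, h5⟩ :=
    Vale.Agent.P265.H363.every_dimension 3 le_rfl
  have h7 : (Fix0 φ).encard ≤ {x | φ 1 x = x}.encard := encard_le_encard fun x hx => hx.1
  have h6 := ((h5.trans (h _ M om H φ h1 h2 h3)).trans h7).trans h4
  norm_num at h6

end Vale.Agent.Results.P265.EveryDimension
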